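import Mathlib
import Vale.Agent.P327.Main

/-!
Every automorphism of the Turing degrees of sets of natural numbers is the identity.
-/

namespace Vale.Agent.Results.P327.Rigidity

open Vale.Agent.P327

theorem result :
    ∀ π : {d : TuringDegree // ∃ A : ℕ → Bool,
          toAntisymmetrization TuringReducible (fun n => Part.some (A n).toNat) = d} ≃o
        {d : TuringDegree // ∃ A : ℕ → Bool,
          toAntisymmetrization TuringReducible (fun n => Part.some (A n).toNat) = d},
      π = OrderIso.refl _ := by
  intro π
  let mk : Cant → {d : TuringDegree // ∃ A : ℕ → Bool,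
      toAntisymmetrization TuringReducible (fun n => Part.some (A n).toNat) = d} :=
    fun A => ⟨toAntisymmetrization TuringReducible (chi A), A, rfl⟩
  have hle : ∀ A B, mk A ≤ mk B ↔ TR A B := fun A B => Iff.rfl
  have hmk : ∀ d, ∃ A, mk A = d := fun ⟨d, A, hA⟩ => ⟨A, Subtype.ext hA⟩
  choose rep hrep using hmk
  let P : Aut :=
    { f := fun A => rep (π (mk A))
      g := fun A => rep (π.symm (mk A))
      le_iff := fun A B => by rw [← hle, hrep, hrep, π.le_iff_le, hle]
      f_g := fun A => by
        rw [← hle, ← hle, hrep, hrep, π.apply_symm_apply]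
        exact ⟨le_rfl, le_rfl⟩
      g_f := fun A => by
        rw [← hle, ← hle, hrep, hrep, π.symm_apply_apply]
        exact ⟨le_rfl, le_rfl⟩ }
  refine OrderIso.ext (funext fun d => ?_)
  obtain ⟨h1, h2⟩ := P.eq_id (rep d)
  rw [← hle] at h1 h2
  have h1' : π d ≤ d := by simpa only [P, hrep] using h1
  have h2' : d ≤ π d := by simpa only [P, hrep] using h2
  exact le_antisymm h1' h2'

end Vale.Agent.Results.P327.Rigidity
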